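import Vale.Agent.P047.Slope

/-!
`M(d) ≤ c d` with an absolute `c < 1`.
-/

namespace Vale.Agent.P047

lemma exists_boolean_deg_le {d : ℕ} (hd : 1 ≤ d) :
    {r : ℝ | ∃ (n : ℕ) (f : (Fin n → Bool) → ℝ),
      1 ≤ n ∧ IsBoolean f ∧ deg f ≤ d ∧ linSum f = r}.Nonempty := by
  obtain ⟨g, h1, _, h3, _⟩ := exists_base
  exact ⟨_, 1, g, le_rfl, h1, (deg_le_of_low g h3).trans hd, rfl⟩

lemma centre_le (k : ℕ) : centre k ≤ Real.pi / (2 * ((2 * k + 1 : ℕ) : ℝ)) :=
  Real.sin_le (by positivity)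

lemma centre_nonneg (k : ℕ) : 0 ≤ centre k := by
  have h1 : (1 : ℝ) ≤ ((2 * k + 1 : ℕ) : ℝ) := by exact_mod_cast (by omega : 1 ≤ 2 * k + 1)
  refine Real.sin_nonneg_of_nonneg_of_le_pi (by positivity) ?_
  rw [div_le_iff₀ (by positivity)]
  nlinarith [Real.pi_pos]

lemma exp_six : Real.exp 6 ≤ 405 := by
  have h : Real.exp 6 = Real.exp 1 ^ 6 := by rw [← Real.exp_nat_mul]; norm_num
  rw [h]
  refine (pow_le_pow_left₀ (Real.exp_pos _).le Real.exp_one_lt_d9.le 6).trans ?_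
  norm_num

lemma exp_large : Real.exp 3.16 ≤ 23.6 := by
  have h : Real.exp 3.16 = Real.exp 1 ^ 3 * Real.exp 0.16 := by
    rw [← Real.exp_nat_mul, ← Real.exp_add]; norm_num
  rw [h]
  have h1 : Real.exp 1 ^ 3 ≤ 20.0856 := by
    refine (pow_le_pow_left₀ (Real.exp_pos _).le Real.exp_one_lt_d9.le 3).trans ?_
    norm_num
  have h2 : Real.exp 0.16 ≤ 1.17352 := by
    refine (Real.exp_bound' (x := 0.16) (by norm_num) (by norm_num) (n := 5) (by norm_num)).trans ?_
    norm_num [Finset.sum_range_succ, Nat.factorial]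
  calc Real.exp 1 ^ 3 * Real.exp 0.16 ≤ 20.0856 * 1.17352 :=
        mul_le_mul h1 h2 (Real.exp_pos _).le (by norm_num)
    _ ≤ 23.6 := by norm_num

/-- For every degree at least `2`. -/
lemma linSum_le_uniform {n d : ℕ} {f : (Fin n → Bool) → ℝ} (hf : IsBoolean f) (hd : deg f ≤ d)
    (h2 : 2 ≤ d) : linSum f ≤ (399 / 400 : ℝ) * d := by
  rcases Nat.lt_or_ge d 3 with h | h3
  · -- degree two: the odd part is linear
    obtain rfl : d = 2 := by omega
    have hlin := oddPoly_degree (D := 1) f hd odd_one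
    obtain ⟨b, c, hbc⟩ := Polynomial.exists_eq_X_add_C_of_natDegree_le_one hlin
    have h1 := (abs_le.mp (mean_abs_le (e := 1) ⟨by norm_num, le_rfl⟩ hf))
    have h0 := (abs_le.mp (mean_abs_le (e := -1) ⟨le_rfl, by norm_num⟩ hf))
    have e1 : (oddPoly f).eval 1 = (mean 1 n f - mean (-1) n f) / 2 := oddPoly_eval f 1
    have e0 : (oddPoly f).eval 0 = 0 := by rw [oddPoly_eval]; simp
    have hS := oddPoly_deriv f
    rw [hbc] at e1 e0 hS
    simp at e1 e0 hS
    push_cast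
    linarith
  set k := (d - 1) / 2 with hk
  have hk1 : 1 ≤ k := by omega
  set D := ((2 * k + 1 : ℕ) : ℝ) with hD
  have hD3 : (3 : ℝ) ≤ D := by rw [hD]; exact_mod_cast (by omega : 3 ≤ 2 * k + 1)
  have hDd : D ≤ d := by rw [hD]; exact_mod_cast (by omega : 2 * k + 1 ≤ d)
  have hdD : (3 : ℝ) * d ≤ 4 * D := by
    rw [hD]; exact_mod_cast (by omega : 3 * d ≤ 4 * (2 * k + 1))
  have hc0 := centre_nonneg k
  have hc := centre_le k
  rw [← hD, le_div_iff₀ (by linarith)] at hc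
  have hpi := Real.pi_lt_d4
  have hda : (d : ℝ) * centre k ≤ 2.0944 := by nlinarith
  have ha : centre k ≤ 0.5236 := by nlinarith
  have ha2 : centre k ^ 2 ≤ 0.2742 := by nlinarith
  have hX : 2 * ((d : ℝ) * centre k / (1 - centre k ^ 2)) ≤ 6 := by
    have : (d : ℝ) * centre k / (1 - centre k ^ 2) ≤ 3 := by
      rw [div_le_iff₀ (by linarith)]; nlinarith
    linarith
  have := linSum_le_main hf hd (show d ≤ 2 * k + 2 by omega) hk1
    ((Real.exp_le_exp.mpr hX).trans exp_six)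
  rw [← hD] at this
  refine this.trans ?_
  have hp : (3 / 10 : ℝ) * (4 / 406) ≤ 1 / Real.pi * (4 / (405 + 1)) := by
    have : (3 / 10 : ℝ) ≤ 1 / Real.pi := by rw [le_div_iff₀ Real.pi_pos]; linarith
    nlinarith
  have : 1 - 2 / Real.pi * (2 / (405 + 1)) ≤ (399 / 400 : ℝ) := by
    rw [show 2 / Real.pi * (2 / (405 + 1 : ℝ)) = 1 / Real.pi * (4 / (405 + 1)) by ring]
    nlinarith [Real.pi_pos]
  nlinarith

/-- For large degree. -/
lemma linSum_le_large {n d : ℕ} {f : (Fin n → Bool) → ℝ} (hf : IsBoolean f) (hd : deg f ≤ d)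
    (h2 : 200 ≤ d) : linSum f ≤ (19 / 20 : ℝ) * d := by
  set k := (d - 1) / 2 with hk
  have hk1 : 1 ≤ k := by omega
  set D := ((2 * k + 1 : ℕ) : ℝ) with hD
  have hD3 : (199 : ℝ) ≤ D := by rw [hD]; exact_mod_cast (by omega : 199 ≤ 2 * k + 1)
  have hDd : D ≤ d := by rw [hD]; exact_mod_cast (by omega : 2 * k + 1 ≤ d)
  have hdD : (199 : ℝ) * d ≤ 200 * D := by
    rw [hD]; exact_mod_cast (by omega : 199 * d ≤ 200 * (2 * k + 1))
  have hc0 := centre_nonneg k
  have hc := centre_le k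
  rw [← hD, le_div_iff₀ (by linarith)] at hc
  have hpi := Real.pi_lt_d4
  have hda : (d : ℝ) * centre k ≤ 1.5788 := by nlinarith
  have ha : centre k ≤ 0.008 := by nlinarith
  have ha2 : centre k ^ 2 ≤ 0.0001 := by nlinarith
  have hX : 2 * ((d : ℝ) * centre k / (1 - centre k ^ 2)) ≤ 3.16 := by
    have : (d : ℝ) * centre k / (1 - centre k ^ 2) ≤ 1.58 := by
      rw [div_le_iff₀ (by linarith)]; nlinarith
    linarith
  have := linSum_le_main hf hd (show d ≤ 2 * k + 2 by omega) hk1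
    ((Real.exp_le_exp.mpr hX).trans exp_large)
  rw [← hD] at this
  refine this.trans ?_
  have hp : (1 / 3.1416 : ℝ) ≤ 1 / Real.pi := one_div_le_one_div_of_le Real.pi_pos hpi.le
  have : 1 - 2 / Real.pi * (2 / (23.6 + 1)) ≤ (19 / 20 : ℝ) := by
    rw [show 2 / Real.pi * (2 / (23.6 + 1 : ℝ)) = 1 / Real.pi * (4 / (23.6 + 1)) by ring]
    have h1 : (1 / 20 : ℝ) ≤ 1 / 3.1416 * (4 / (23.6 + 1)) := by norm_num
    nlinarith
  nlinarith

end Vale.Agent.P047

namespace Vale.Agent.Results.P047.BelowDegree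

open Vale.Agent.P047

/-- The linear bound `M(d) ≤ d` improved by a constant factor. -/
theorem result :
    (∀ d : ℕ, 2 ≤ d → M d ≤ (399 / 400 : ℝ) * d) ∧
      ∀ d : ℕ, 200 ≤ d → M d ≤ (19 / 20 : ℝ) * d := by
  constructor
  · intro d hd
    refine csSup_le (exists_boolean_deg_le (by omega)) ?_
    rintro _ ⟨n, f, _, hf, hfd, rfl⟩
    exact linSum_le_uniform hf hfd hd
  · intro d hd
    refine csSup_le (exists_boolean_deg_le (by omega)) ?_
    rintro _ ⟨n, f, _, hf, hfd, rfl⟩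
    exact linSum_le_large hf hfd hd

end Vale.Agent.Results.P047.BelowDegree
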