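import Vale.Agent.P047.Counterexample
import Vale.Agent.P047.Exponent

/-!
The square-root bound is false, also with a constant factor.
-/

namespace Vale.Agent.Results.P047.Disproof

open Filter Topology Vale.Agent.P047

/-- Both forms of the square-root bound fail, and `M` grows like a larger power. -/
theorem result :
    (¬ ∀ (n : ℕ) (f : (Fin n → Bool) → ℝ), IsBoolean f → linSum f ≤ Real.sqrt (deg f)) ∧
      (¬ ∃ C : ℝ, ∀ d : ℕ, 1 ≤ d → M d ≤ C * Real.sqrt d) ∧
      ∃ δ : ℝ, 0 < δ ∧ ∀ᶠ d : ℕ in atTop, (d : ℝ) ^ (1 / 2 + δ) ≤ M d := by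
  obtain ⟨n, f, hn, hf, hS⟩ := exists_counterexample
  have hd : 1 ≤ deg f := by
    by_contra h
    have h0 : deg f = 0 := by omega
    have h1 := linSum_le_deg hf
    rw [h0] at hS h1
    simp at hS h1
    linarith
  have hd1 : (1 : ℝ) ≤ deg f := by exact_mod_cast hd
  refine ⟨fun h => absurd (h n f hf) (not_le.mpr hS), fun ⟨C, hC⟩ => ?_, ?_⟩
  · have h := power_bound (a := 1 / 2) (by norm_num)
      (fun D hD => by rw [← Real.sqrt_eq_rpow]; exact hC D hD) hf le_rfl hd
    rw [← Real.sqrt_eq_rpow] at h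
    linarith
  · obtain ⟨θ, -, hup, hlim⟩ := exists_exponent
    have hθ : 1 / 2 < θ := by
      by_contra h
      have h1 : linSum f ≤ (deg f : ℝ) ^ θ := (le_M hn hf le_rfl).trans (hup _ hd)
      have h2 : (deg f : ℝ) ^ θ ≤ (deg f : ℝ) ^ (1 / 2 : ℝ) :=
        Real.rpow_le_rpow_of_exponent_le hd1 (not_lt.mp h)
      rw [← Real.sqrt_eq_rpow] at h2
      linarith
    refine ⟨(θ - 1 / 2) / 2, by linarith, ?_⟩
    filter_upwards [hlim.eventually (eventually_gt_nhds
      (show 1 / 2 + (θ - 1 / 2) / 2 < θ by linarith)), eventually_ge_atTop 2] with d h h2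
    have hd2 : (1 : ℝ) < d := by exact_mod_cast h2
    rw [lt_div_iff₀ (Real.log_pos hd2)] at h
    rw [Real.rpow_def_of_pos (by linarith), mul_comm,
      ← Real.le_log_iff_exp_le (lt_of_lt_of_le one_pos (one_le_M (by omega)))]
    exact h.le

end Vale.Agent.Results.P047.Disproof
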